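import Mathlib.Analysis.Normed.Field.Instances
import Mathlib.Analysis.Normed.Field.WithAbs
import Mathlib.FieldTheory.IsSepClosed
import Mathlib.FieldTheory.RatFunc.Basic
import Mathlib.LinearAlgebra.Matrix.GeneralLinearGroup.Defs
import Mathlib.LinearAlgebra.Matrix.Trace
import Mathlib.NumberTheory.NumberField.Basic
import Mathlib.Topology.Instances.Matrix

/-!
The Margulis-Platonov conjecture: linear algebraic groups over a global field `k`, given by their
points over a separable closure `K` of `k`. Only definitions.
-/

open Matrix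

namespace Vale.Agent.P011L

/-- `k` is a number field or a finite extension of a field of rational functions in one variable
over a finite field. -/
def Glob (k : Type) [Field k] : Prop :=
  NumberField k ∨ ∃ (F : Type) (_ : Field F) (_ : Finite F) (_ : Algebra (RatFunc F) k),
    FiniteDimensional (RatFunc F) k

section

variable (k : Type) [Field k] {K : Type} [Field K] [Algebra k K]
  {m n : Type} [Fintype m] [DecidableEq m] [Fintype n] [DecidableEq n]

/-- The polynomial `p` over `k` in the matrix entries vanishes on `G`. -/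
def Van (G : Subgroup (GL m K)) (p : MvPolynomial (m × m) k) : Prop :=
  ∀ g ∈ G, MvPolynomial.aeval (fun e => g.1 e.1 e.2) p = 0

/-- The group `G(L)` of the points of `G` over the extension `L` of `k`: the common zeros of the
polynomials over `k` which vanish on `G`. -/
def Pts (G : Subgroup (GL m K)) (L : Type) [Field L] [Algebra k L] : Subgroup (GL m L) :=
  Subgroup.closure {g | ∀ p, Van k G p → MvPolynomial.aeval (fun e => g.1 e.1 e.2) p = 0}

variable {k}

/-- The group `H` of the `L`-points has rank zero: it contains no nontrivial split torus. -/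
def Ani {L : Type} [Field L] (H : Subgroup (GL m L)) : Prop :=
  ∀ (g : GL m L) (y : m → ℤ),
    (∀ t : Lˣ, ∃ h ∈ H, h.1 * g.1 = g.1 * diagonal fun i => (t ^ y i).1) → y = 0

/-- The entries of `φ(g)` are polynomials in the entries of `g`. -/
def Pol {G : Subgroup (GL m K)} {H : Subgroup (GL n K)} (φ : G ≃* H) : Prop :=
  ∀ i j, ∃ p : MvPolynomial (m × m) K, ∀ g : G,
    (φ g).1.1 i j = MvPolynomial.eval (fun e => g.1.1 e.1 e.2) p

variable (k)

/-- `G` is the zero set of polynomials over `k`, and `φ` is an isomorphism of algebraic groups over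
`K` from `G` to `H`. -/
def Form {G : Subgroup (GL m K)} {H : Subgroup (GL n K)} (φ : G ≃* H) : Prop :=
  Pts k G K = G ∧ Pol φ ∧ Pol φ.symm

variable {k}

/-- The automorphisms `σ` of `G` and of `H` correspond under `φ` up to the conjugation by an element
of `S`: the image of `σ` in the group of the outer automorphisms is trivial. -/
def Inn {G : Subgroup (GL m K)} {H : Subgroup (GL n K)} (φ : G ≃* H) (S : Subgroup (GL n K))
    (σ : K ≃ₐ[k] K) : Prop :=
  ∃ s ∈ S, ∀ g g' : G, g'.1.1 = g.1.1.map σ → (φ g').1.1 * s.1 = s.1 * (φ g).1.1.map σ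

variable (k)

/-- The set `A(G)` of the nonarchimedean places `v` of `k` such that `G` has rank zero over `k_v`.
A place is given by its normalized absolute value: the finite set `S` represents the residue
classes, and the nonzero absolute values are the integral powers of the number of its elements. -/
structure AG (G : Subgroup (GL m K)) where
  abv : AbsoluteValue k ℝ
  nonarch : ∀ x y, abv (x + y) ≤ max (abv x) (abv y)
  normalized : ∃ S : Finset k, (∀ s ∈ S, abv s ≤ 1) ∧
    (∀ x, abv x ≤ 1 → ∃! s, s ∈ S ∧ abv (x - s) < 1) ∧ (∃ x, abv x = S.card) ∧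
    ∀ x, x ≠ 0 → ∃ m : ℤ, abv x = S.card ^ m
  ani : Ani (Pts k G abv.Completion)

/-- The statement of the conjecture for `G`: there is the diagonal homomorphism `δ` from `G(k)` to
the product `H_A` of the groups `G(k_v)`, `v` in `A(G)`, and every noncentral normal subgroup of
`G(k)` is the preimage of an open normal subgroup of `H_A`. -/
def MP (G : Subgroup (GL m K)) : Prop :=
  ∃ δ : Pts k G k →* ∀ v : AG k G, Pts k G v.abv.Completion,
    (∀ g v, (δ g v).1.1 = g.1.1.map (algebraMap k v.abv.Completion)) ∧
    ∀ N : Subgroup (Pts k G k), N.Normal → ¬N ≤ Subgroup.center (Pts k G k) →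
      ∃ W : Subgroup (∀ v : AG k G, Pts k G v.abv.Completion),
        IsOpen (W : Set (∀ v : AG k G, Pts k G v.abv.Completion)) ∧ W.Normal ∧ N = W.comap δ

end

section

variable (K : Type) [Field K]

/-- The simply connected split group of type `A`: the special linear group. -/
def SA (n : ℕ) : Subgroup (GL (Fin n) K) := (GeneralLinearGroup.det).ker

variable {K} in
/-- The cubic form `det x₀ + det x₁ + det x₂ - tr (x₀ x₁ x₂)` on triples of `3 × 3` matrices. -/
def cub (x : Fin 3 × Fin 3 × Fin 3 → K) : K :=
  ∑ l, (of fun i j => x (l, i, j)).det -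
    ((of fun i j => x (0, i, j)) * (of fun i j => x (1, i, j)) * of fun i j => x (2, i, j)).trace

/-- The simply connected split group of type `E₆`: the stabiliser of the cubic form. -/
def SE : Subgroup (GL (Fin 3 × Fin 3 × Fin 3) K) :=
  Subgroup.closure {g | ∀ x, cub (g.1 *ᵥ x) = cub x}

/-- The simply connected split group of type `D₄`: the stabiliser in `SE` of the three diagonal
matrix units of `x₀`. -/
def SD : Subgroup (GL (Fin 3 × Fin 3 × Fin 3) K) :=
  Subgroup.closure {g | g ∈ SE K ∧ ∀ i, g.1 *ᵥ Pi.single (0, i, i) 1 = Pi.single (0, i, i) 1}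

end

/-- The target. -/
def INT : Prop :=
  ∀ (k K : Type) [Field k] [Field K] [Algebra k K] [IsSepClosure k K] (m : ℕ)
    (G : Subgroup (GL (Fin m) K)), Ani (Pts k G k) →
    (∀ (n : ℕ) (φ : G ≃* SA K n), 3 ≤ n → Glob k → Form k φ →
      (∃ σ : K ≃ₐ[k] K, ¬Inn φ ⊤ σ) → MP k G) ∧
    (∀ φ : G ≃* SD K, NumberField k → Form k φ → (∃ σ : K ≃ₐ[k] K, ¬Inn φ (SD K) (σ * σ)) →
      MP k G) ∧
    ∀ φ : G ≃* SE K, NumberField k → Form k φ → MP k G

end Vale.Agent.P011L
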