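import Vale.Agent.P011L.Defs

/-!
Interfaces between the blocks.
-/

open Matrix

namespace Vale.Agent.P011L

section

variable (k : Type) [Field k] {K : Type} [Field K] [Algebra k K]
  {m n : Type} [Fintype m] [DecidableEq m] [Fintype n] [DecidableEq n]

/-- A twisted action of the Galois group on `H`. -/
structure Tw (H : Subgroup (GL n K)) where
  a : (K ≃ₐ[k] K) →* MulAut H
  pol : ∀ σ i j, ∃ p : MvPolynomial (n × n) K, ∀ g : H,
    (a σ g).1.1 i j = MvPolynomial.eval (fun e => σ (g.1.1 e.1 e.2)) p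
  cont : ∃ F : IntermediateField k K, FiniteDimensional k F ∧
    ∀ σ : K ≃ₐ[k] K, (∀ x ∈ F, σ x = x) → ∀ g : H, (a σ g).1.1 = g.1.1.map σ

variable {k} {H : Subgroup (GL n K)} (T : Tw k H)

/-- The fixed points. -/
def Tw.fix : Subgroup H where
  carrier := {g | ∀ σ, T.a σ g = g}
  mul_mem' := fun ha hb σ => by rw [map_mul, ha σ, hb σ]
  one_mem' := fun σ => map_one _
  inv_mem' := fun ha σ => by rw [map_inv, ha σ]

/-- There is no nontrivial equivariant cocharacter. -/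
def Tw.Ani : Prop :=
  ∀ (g : GL n K) (y : n → ℤ) (l : Kˣ → H),
    (∀ t, (l t).1.1 * g.1 = g.1 * diagonal fun i => (t ^ y i).1) →
    (∀ σ t, T.a σ (l t) = l (Units.map (σ : K →* K) t)) → y = 0

/-- `σ` acts as its standard action followed by the conjugation by an element of `S`. -/
def Tw.Inn (S : Subgroup (GL n K)) (σ : K ≃ₐ[k] K) : Prop :=
  ∃ s ∈ S, ∀ g : H, (T.a σ g).1.1 * s.1 = s.1 * g.1.1.map σ

/-- The group `H` is stable under the Galois group. -/
def Stab (k : Type) [Field k] [Algebra k K] (H : Subgroup (GL n K)) : Prop :=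
  ∀ (σ : K ≃ₐ[k] K), ∀ g ∈ H, ∃ g' ∈ H, g'.1 = g.1.map σ

end

/-- Every noncentral normal subgroup is everything. -/
def PSimple (G : Type) [Group G] : Prop :=
  ∀ N : Subgroup G, N.Normal → ¬N ≤ Subgroup.center G → N = ⊤

/-- T1: forms give twisted actions. -/
def T1 : Prop :=
  ∀ (k K : Type) [Field k] [Infinite k] [Field K] [Algebra k K] [IsSepClosure k K] (m n : Type)
    [Fintype m] [DecidableEq m] [Fintype n] [DecidableEq n] (G : Subgroup (GL m K))
    (H : Subgroup (GL n K)) (φ : G ≃* H), Stab k H → Form k φ →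
    ∃ T : Tw k H, Nonempty (Pts k G k ≃* T.fix) ∧ (Ani (Pts k G k) → T.Ani) ∧
      ∀ S σ, T.Inn S σ → Inn φ S σ

/-- T2: the conjecture holds for projectively simple groups. -/
def T2 : Prop :=
  ∀ (k K : Type) [Field k] [Field K] [Algebra k K] (m : Type) [Fintype m] [DecidableEq m]
    (G : Subgroup (GL m K)), PSimple (Pts k G k) → MP k G

/-- TA: the outer forms of type `A`. -/
def TA : Prop :=
  ∀ (k K : Type) [Field k] [Field K] [Algebra k K] [IsSepClosure k K] (m : ℕ)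
    (G : Subgroup (GL (Fin m) K)), Ani (Pts k G k) → ∀ (n : ℕ) (φ : G ≃* SA K n), 3 ≤ n →
    Glob k → Form k φ → (∃ σ : K ≃ₐ[k] K, ¬Inn φ ⊤ σ) → MP k G

/-- A1: the automorphisms of `SL_n`. -/
def A1 : Prop :=
  ∀ (K : Type) [Field K] [IsSepClosed K] (n : ℕ), 3 ≤ n → ∀ ψ : SA K n ≃* SA K n, Pol ψ →
    Pol ψ.symm → ∃ s : GL (Fin n) K, (∀ g, (ψ g).1.1 * s.1 = s.1 * g.1.1) ∨
      ∀ g, (ψ g).1.1 * s.1 = s.1 * (g⁻¹).1.1ᵀ

/-- CE: the automorphisms of `E₆`. -/
def CE : Prop :=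
  ∀ (K : Type) [Field K] [IsAlgClosed K] [CharZero K] (ψ : SE K ≃* SE K), Pol ψ → Pol ψ.symm →
    ∃ s ∈ SE K, (∀ g, (ψ g).1.1 * s.1 = s.1 * g.1.1) ∨
      ∀ g, (ψ g).1.1 * s.1 = s.1 * (g⁻¹).1.1ᵀ

/-- CD: the automorphisms of `D₄`. -/
def CD : Prop :=
  ∀ (K : Type) [Field K] [IsAlgClosed K] [CharZero K] (ψ : SD K ≃* SD K), Pol ψ → Pol ψ.symm →
    ∃ s ∈ SE K, ∃ π : Equiv.Perm (Fin 3),
      (∀ i, s.1 *ᵥ Pi.single (0, i, i) 1 = Pi.single (0, π i, π i) 1) ∧
      ∀ g, (ψ g).1.1 * s.1 = s.1 * g.1.1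

/-- HE: the anisotropic forms of `E₆`. -/
def HE : Prop :=
  ∀ (k K : Type) [Field k] [NumberField k] [Field K] [Algebra k K] [IsAlgClosure k K]
    (T : Tw k (SE K)), T.Ani → PSimple T.fix

/-- HD: the anisotropic trialitarian forms of `D₄`. -/
def HD : Prop :=
  ∀ (k K : Type) [Field k] [NumberField k] [Field K] [Algebra k K] [IsAlgClosure k K]
    (T : Tw k (SD K)), T.Ani → (∃ σ, ¬T.Inn (SD K) (σ * σ)) → PSimple T.fix

end Vale.Agent.P011L
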